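import Vale.Agent.P022E.G5.Defs
import Vale.Agent.P022E.Two.Cls

/-! # P022, block G5, row DICK -/

namespace Vale.Agent.P022E.G5

theorem dick : DICK := by
  intro F _ _ G _ ρ hs hsp
  obtain ⟨P, h⟩ := Two.clsGL ρ hs hsp
  refine ⟨(P : Matrix (Fin 2) (Fin 2) F), ((P⁻¹ : GL (Fin 2) F) : Matrix (Fin 2) (Fin 2) F),
    by rw [← Units.val_mul, mul_inv_cancel, Units.val_one], ?_⟩
  simpa only [Units.val_mul] using h

end Vale.Agent.P022E.G5
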