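import Vale.Agent.P022E.G5.Defs
import Vale.Agent.P022D.L2c.All

/-!
# P022E, block G5: row NS
-/

set_option linter.all false

noncomputable section

namespace Vale.Agent.P022E.G5

open Vale.Agent.P022D Vale.Agent.P022D.L2c

namespace Ns

variable {F G : Type} [Field F] [Group G] [TopologicalSpace G] {V : Subgroup G} {t : G}

theorem eg {f : G → F} {μ ν : G →* F} (hf : IsLocallyConstant f)
    (h : ∀ x y, f (x * y) = f x * μ y + ν x * f y) (hμ : ∀ v ∈ V, μ v = 1) (hν : ∀ v ∈ V, ν v = 1)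
    {κ : F} (hκ : κ = ν t * μ t⁻¹) : (fun v : V => f v) ∈ Eg F V t κ := by
  refine ⟨⟨hf.comp_continuous continuous_subtype_val, fun x y => ?_⟩, fun v v' e => ?_⟩
  · show f (x * y) = f x + f y
    rw [h, hμ _ y.2, hν _ x.2, mul_one, one_mul]
  · show f v' = κ * f v
    have e1 : f (v' * t) = f (t * v) := by rw [e, inv_mul_cancel_right]
    have e2 : μ t * μ t⁻¹ = 1 := by rw [← map_mul, mul_inv_cancel, map_one]
    rw [h, h, hμ _ v.2, hν _ v'.2] at e1
    rw [hκ]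
    linear_combination μ t⁻¹ * e1 - f v' * e2

theorem all0 {f μ ν : G → F} (h : ∀ x y, f (x * y) = f x * μ y + ν x * f y)
    (gen : ∀ u, ∃ i : ℕ, (t ^ i)⁻¹ * u ∈ V) (hV : ∀ v ∈ V, f v = 0) (ht : f t = 0) (x : G) :
    f x = 0 := by
  have h1 : ∀ i : ℕ, f (t ^ i) = 0 := fun i => by
    induction i with
    | zero => rw [pow_zero]; exact hV 1 V.one_mem
    | succ i ih => rw [pow_succ, h, ih, ht, zero_mul, mul_zero, add_zero]
  obtain ⟨i, hi⟩ := gen x
  have h2 := h (t ^ i) ((t ^ i)⁻¹ * x)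
  rwa [mul_inv_cancel_left, h1, hV _ hi, zero_mul, mul_zero, add_zero] at h2

end Ns

open Ns in
theorem ns : NS := by
  intro F _ _ _ r hr hd h10 ⟨y, y0, y1⟩ ⟨x0, hx0⟩
  have two : (2 : F) = 0 := CharTwo.two_eq_zero
  have ent : ∀ (X Y : M2 F) i j, (X * Y) i j = X i 0 * Y 0 j + X i 1 * Y 1 j := fun X Y i j => by
    rw [Matrix.mul_apply, Fin.sum_univ_two]
  let A : G2 →* F :=
    { toFun := fun x => r x 0 0
      map_one' := by rw [map_one, Matrix.one_apply_eq]
      map_mul' := fun x y => by rw [map_mul, ent, h10, mul_zero, add_zero] }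
  let D : G2 →* F :=
    { toFun := fun x => r x 1 1
      map_one' := by rw [map_one, Matrix.one_apply_eq]
      map_mul' := fun x y => by rw [map_mul, ent, h10, zero_mul, zero_add] }
  have hA : ∀ x, r x 0 0 = A x := fun _ => rfl
  have hD : ∀ x, r x 1 1 = D x := fun _ => rfl
  have AD : ∀ x, A x * D x = 1 := fun x => by
    have e := hd x
    rwa [Matrix.det_fin_two, h10, mul_zero, sub_zero] at e
  let r0 : G2 →* M2 F :=
    { toFun := fun x => !![A x, 0; 0, D x]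
      map_one' := by rw [map_one, map_one, Matrix.one_fin_two]
      map_mul' := fun x y => by
        rw [map_mul, map_mul, Matrix.mul_fin_two]
        simp }
  have h0 : Dih0 r0 ⊤ := ⟨fun g _ => ⟨rfl, rfl⟩, fun g hg => absurd trivial hg,
    (hr.comp fun X : M2 F => (!![X 0 0, 0; 0, X 1 1] : M2 F)).isOpen_fiber 1, y, trivial, y1⟩
  obtain ⟨V, t, h⟩ := dih F G2 r0 ⊤ h0
  have k := kum (locu (locu1 herb6) locu2 (locu3 herb6))
  have e1 := k.2 F ⊤ V t _ h.nrm h.opV le_top h.tU h.gen h.odd h.ne h.pow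
  have e2 := k.2 F ⊤ V t (th r0 t)⁻¹ h.nrm h.opV le_top h.tU h.gen h.odd
    (fun e => h.ne (inv_eq_one.1 e)) (by rw [inv_pow, h.pow, inv_one])
  rw [Subgroup.index_top] at e1 e2
  have AV : ∀ v ∈ V, A v = 1 := fun v hv => by
    have e : A v = D v := ((h.sc v).1 hv).2
    have e3 := AD v
    rw [← e] at e3
    have e4 : (A v - 1) ^ 2 = 0 := by linear_combination e3 + (1 - A v) * two
    exact sub_eq_zero.1 (pow_eq_zero_iff two_ne_zero |>.1 e4)
  have DV : ∀ v ∈ V, D v = 1 := fun v hv => by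
    have e := AD v
    rwa [AV v hv, one_mul] at e
  have t1 : th r0 t = A t * D t⁻¹ := rfl
  have t2 : (th r0 t)⁻¹ = D t * A t⁻¹ := by
    refine inv_eq_of_mul_eq_one_right ?_
    rw [t1]
    linear_combination A t⁻¹ * D t⁻¹ * AD t + AD t⁻¹
  have gen : ∀ u, ∃ i : ℕ, (t ^ i)⁻¹ * u ∈ V := fun u => h.gen u trivial
  have hb : ∀ x y, r (x * y) 0 1 = r x 0 1 * D y + A x * r y 0 1 := fun x y => by
    rw [map_mul, ent, hA, hD, add_comm]
  have b1 := eg (hr.comp fun X : M2 F => X 0 1) hb DV AV t1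
  have b2 : (fun v : V => r v 0 1) ≠ 0 := fun e => hx0 (by
    have cm : ∀ χ : G2 →* F, χ (x0 * y * (y * x0)⁻¹) = 1 := fun χ => by
      rw [map_mul, map_mul, mul_comm (χ x0), ← map_mul, ← map_mul, mul_inv_cancel, map_one]
    have m : x0 * y * (y * x0)⁻¹ ∈ V := (h.sc _).2 ⟨trivial, (cm A).trans (cm D).symm⟩
    have e3 := hb (x0 * y * (y * x0)⁻¹) (y * x0)
    have e4 : r (x0 * y * (y * x0)⁻¹) 0 1 = 0 := congrFun e ⟨_, m⟩
    rw [inv_mul_cancel_right, e4, cm A, hb, hb, y0] at e3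
    exact (mul_eq_zero.1 (show r x0 0 1 * (A y - D y) = 0 by linear_combination -e3)).resolve_right
      (sub_ne_zero.2 y1))
  obtain ⟨c0, c1, c2⟩ := sym1 F G2 V h.nrm ((nir G2 k.1).2 V h.opV) t _ _ h.odd h.tpow h.pow _ b1 b2
  have c3 : c0 ≠ 0 := fun e => c2 (by
    rw [e]
    exact cast (congrArg (· ∈ Cob F V) (funext fun _ => funext fun _ => (mul_zero _).symm))
      (zero_mem _))
  obtain ⟨g, hg⟩ := pickH F G2 k.1.1
  obtain ⟨v, hv⟩ := pickS 1 one_ne_zero _ e1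
  refine ⟨![t, g 0, g 1, g 2, t, v 0], ![1, 0, 0, 0, 0, 0], ![0, 0, 0, 0, 1, 1],
    fun c hc h0 x => ?_⟩
  have lc : ∀ i j, IsLocallyConstant fun x => c x i j := fun i j => hc.lc.comp fun X => X i j
  have m10 : ∀ x y, c (x * y) 1 0 = c x 1 0 * A y + D x * c y 1 0 := fun x y => by
    rw [hc.mul, Matrix.add_apply, ent, ent, h10, h10, hA, hD]
    ring
  have m00 : ∀ x y, c (x * y) 0 0 = c x 0 0 * A y + A x * c y 0 0 + r x 0 1 * c y 1 0 :=
    fun x y => by
      rw [hc.mul, Matrix.add_apply, ent, ent, h10, hA, hA]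
      ring
  have z1 := eg (lc 1 0) m10 AV DV t2
  obtain ⟨l, hl⟩ := (finrank_eq_one_iff_of_nonzero' (⟨c0, c1⟩ : Eg F V t (th r0 t)⁻¹)
    fun e => c3 (congrArg Subtype.val e)).1 e2 ⟨_, z1⟩
  have hl' : ∀ v : V, l * c0 v = c v 1 0 := fun v => congrFun (congrArg Subtype.val hl) v
  have l0 : l = 0 := by
    by_contra hn
    refine c2 ⟨fun v => l⁻¹ * c v 0 0,
      ((lc 0 0).comp_continuous continuous_subtype_val).comp (l⁻¹ * ·), fun a b => ?_⟩
    show l⁻¹ * c (a * b) 0 0 = l⁻¹ * c a 0 0 + l⁻¹ * c b 0 0 + r a 0 1 * c0 b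
    rw [m00, AV _ a.2, AV _ b.2, ← hl']
    linear_combination r a 0 1 * c0 b * inv_mul_cancel₀ hn
  have z0 : ∀ x, c x 1 0 = 0 := all0 m10 gen
    (fun v hv => by rw [← hl' ⟨v, hv⟩, l0, zero_mul]) (h0 0)
  have a0 : ∀ x, c x 0 0 = 0 := fun x => by
    have e := congrFun (hg (fun x => c x 0 0 * D x)
      ⟨(lc 0 0).mul (hr.comp fun X : M2 F => X 1 1), fun a b => by
        beta_reduce
        rw [m00, z0, map_mul]
        linear_combination c a 0 0 * D a * AD b + c b 0 0 * D b * AD a⟩ fun j => by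
        fin_cases j
        exacts [mul_eq_zero_of_left (h0 1) _, mul_eq_zero_of_left (h0 2) _,
          mul_eq_zero_of_left (h0 3) _]) x
    exact (mul_eq_zero.1 e).resolve_right (right_ne_zero_of_mul_eq_one (AD x))
  have d0 : ∀ x, c x 1 1 = 0 := fun x => by
    have e := hc.det x
    rw [L2b.pd, a0, z0, h10, hA] at e
    linear_combination D x * e - c x 1 1 * AD x
  have m01 : ∀ x y, c (x * y) 0 1 = c x 0 1 * D y + A x * c y 0 1 := fun x y => by
    rw [hc.mul, Matrix.add_apply, ent, ent, a0, d0, hA, hD]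
    ring
  have y0 : ∀ x, c x 0 1 = 0 := all0 m01 gen (fun w hw => congrFun (hv _ (eg (lc 0 1) m01 DV AV t1)
    fun j => by fin_cases j; exact h0 5) ⟨w, hw⟩) (h0 4)
  ext i j
  fin_cases i <;> fin_cases j
  exacts [a0 x, y0 x, z0 x, d0 x]

end Vale.Agent.P022E.G5
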