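import Vale.Agent.P022E.G5.Cj
import Vale.Agent.P022E.G5.Ns
import Vale.Agent.P022E.G5.Dick
import Vale.Agent.P022E.Two.Solv
import Vale.Agent.P022D.L2c.All

/-!
# P022, block G5: the local block at two for any residual representation
-/

set_option linter.all false

noncomputable section

namespace Vale.Agent.P022E.G5

open IsLocalRing
open Vale.Agent.P022 Vale.Agent.P022D Vale.Agent.P022D.L2b Vale.Agent.P022D.Loc2

section

variable {G F : Type} [Group G] [TopologicalSpace G] [Field F]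

theorem cjr (r : G →* M2 F) {P Q : M2 F} (h : P * Q = 1) : Cj P Q r ((cj P Q h).comp r) :=
  ⟨h, fun _ => rfl⟩

theorem Cj.lc {P Q : M2 F} {r r' : G →* M2 F} (h : Cj P Q r r') (hr : IsLocallyConstant r) :
    IsLocallyConstant r' := by
  rw [show (r' : G → M2 F) = _ from funext h.2]
  exact hr.comp fun X => Q * X * P

theorem Cj.det {P Q : M2 F} {r r' : G →* M2 F} (h : Cj P Q r r') (x : G) :
    (r' x).det = (r x).det := by rw [h.2, det_cj h.1]

theorem Cj.trans {P Q P' Q' : M2 F} {r r' r'' : G →* M2 F} (h : Cj P Q r r')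
    (h' : Cj P' Q' r' r'') : Cj (P * P') (Q' * Q) r r'' := by
  refine ⟨?_, fun x => by rw [h'.2, h.2]; simp only [Matrix.mul_assoc]⟩
  calc P * P' * (Q' * Q) = P * (P' * Q') * Q := by simp only [Matrix.mul_assoc]
    _ = 1 := by rw [h'.1, mul_one, h.1]

theorem one_of [CharP F 2] {a : F} (h : a * a = 1) : a = 1 := by
  have h2 : (2 : F) = 0 := CharTwo.two_eq_zero
  have e6 : (a - 1) ^ 2 = 0 := by linear_combination h + (1 - a) * h2
  exact sub_eq_zero.1 (pow_eq_zero_iff two_ne_zero |>.1 e6)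

/-- a monomial representation whose diagonal elements are scalars is unipotent -/
theorem uni_of [CharP F 2] (r : G →* M2 F)
    (hx : ∀ x, (r x 0 1 = 0 ∧ r x 1 0 = 0) ∨ (r x 0 0 = 0 ∧ r x 1 1 = 0))
    (hdet : ∀ x, (r x).det = 1) (h1 : ∀ x, r x 0 1 = 0 → r x 0 0 = r x 1 1) :
    ∃ P Q : M2 F, P * Q = 1 ∧ ∀ x, ∃ n, Q * r x * P = !![1, n; 0, 1] := by
  have h2 : (2 : F) = 0 := CharTwo.two_eq_zero
  have hone : ∀ x, r x 0 1 = 0 → r x 1 0 = 0 → r x = 1 := by
    intro x e1 e2
    have e3 := h1 x e1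
    have e4 := hdet x
    rw [Matrix.det_fin_two, e1, ← e3, zero_mul, sub_zero] at e4
    have e5 := one_of e4
    ext i j
    fin_cases i <;> fin_cases j
    · exact e5
    · exact e1
    · exact e2
    · exact e3.symm.trans e5
  by_cases h3 : ∃ y, r y 0 0 = 0 ∧ r y 1 1 = 0
  · obtain ⟨y, y0, y1⟩ := h3
    have e4 := hdet y
    rw [Matrix.det_fin_two, y0] at e4
    have hb : r y 0 1 * r y 1 0 = 1 := by linear_combination -e4 - h2
    refine ⟨!![r y 0 1, 0; 1, r y 1 0], !![r y 1 0, 0; -1, r y 0 1], ?_, fun x => ?_⟩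
    · ext i j
      fin_cases i <;> fin_cases j <;>
        simp [Matrix.mul_apply, Fin.sum_univ_two, hb, mul_comm (r y 1 0)]
    · rcases hx x with ⟨e1, e2⟩ | ⟨e1, e2⟩
      · refine ⟨0, ?_⟩
        rw [hone x e1 e2]
        ext i j
        fin_cases i <;> fin_cases j <;>
          simp [Matrix.mul_apply, Fin.sum_univ_two, hb, mul_comm (r y 1 0)]
      · have e3 : r (x * y) = 1 := by
          refine hone _ ?_ ?_ <;>
            simp [Matrix.mul_apply, Fin.sum_univ_two, e1, e2, y0, y1]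
        rw [map_mul] at e3
        have e5 := congrFun (congrFun e3 0) 0
        have e6 := congrFun (congrFun e3 1) 1
        simp only [Matrix.mul_apply, Fin.sum_univ_two, e1, e2, zero_mul, zero_add, add_zero,
          Matrix.one_apply_eq] at e5 e6
        have e7 : r x 0 1 = r y 0 1 := by linear_combination r y 0 1 * e5 - r x 0 1 * hb
        have e8 : r x 1 0 = r y 1 0 := by linear_combination r y 1 0 * e6 - r x 1 0 * hb
        refine ⟨r y 1 0 * r y 1 0 * r y 0 1, ?_⟩
        ext i j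
        fin_cases i <;> fin_cases j <;>
          simp [Matrix.mul_apply, Matrix.vecMul, dotProduct, Fin.sum_univ_two, e1, e2, e7, e8]
        · linear_combination hb
        · ring
        · linear_combination r y 0 1 * hb
        · linear_combination -hb - h2
  · refine ⟨1, 1, mul_one _, fun x => ⟨0, ?_⟩⟩
    obtain ⟨e1, e2⟩ := (hx x).resolve_right fun h => h3 ⟨x, h⟩
    rw [hone x e1 e2, mul_one, mul_one, Matrix.one_fin_two]

/-- a triangular representation with two different characters: one element is made diagonal -/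
theorem dg_of (r : G →* M2 F) (hx : ∀ x, r x 1 0 = 0) {y : G} (hy : r y 0 0 ≠ r y 1 1) :
    ∃ P Q : M2 F, P * Q = 1 ∧ (∀ x, (Q * r x * P) 1 0 = 0) ∧ (Q * r y * P) 0 1 = 0 ∧
      (Q * r y * P) 0 0 ≠ (Q * r y * P) 1 1 := by
  have hn : r y 1 1 - r y 0 0 ≠ 0 := sub_ne_zero.2 hy.symm
  obtain ⟨k, hk⟩ : ∃ k, k * (r y 1 1 - r y 0 0) = r y 0 1 := ⟨_, div_mul_cancel₀ _ hn⟩
  refine ⟨!![1, k; 0, 1], !![1, -k; 0, 1], ?_, fun x => ?_, ?_, ?_⟩
  · ext i j
    fin_cases i <;> fin_cases j <;> simp [Matrix.mul_apply, Fin.sum_univ_two]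
  · simp [Matrix.mul_apply, Matrix.vecMul, dotProduct, Fin.sum_univ_two, hx]
  · simp [Matrix.mul_apply, Matrix.vecMul, dotProduct, Fin.sum_univ_two, hx]
    linear_combination -hk
  · simpa [Matrix.mul_apply, Matrix.vecMul, dotProduct, Fin.sum_univ_two, hx] using hy

variable {O : Type} [CommRing O] [IsLocalRing O] [Algebra O F]

/-- six coordinates and no equation -/
theorem outN {r : G →* M2 F} {s : F → O} {d : G → O} (hr : IsLocallyConstant r)
    (hs : ∀ x, algebraMap O F (s x) = x) (hd : ∀ x, algebraMap O F (d x) = (r x).det)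
    {g : Fin 6 → G} {p q : Fin 6 → Fin 2} (hT : TnG r g p q) : OutG r s d 6 := by
  refine ⟨Fin 6, Empty, inferInstance, inferInstance, g, p, q, Empty.elim, by simp,
    fun i => i.elim, ?_, hT, fun A _ _ _ ρ hρ => ⟨fun x i j => ?_, fun _ _ i => i.elim⟩⟩
  · intro B _ _ _ _ _ φ _ _ _ _ K _ _ _
    exact Or.inl fun _ _ i => i.elim
  · have h7 : Tn r (Fin.cons (g 0) g) (Fin.cons (p 0) p) (Fin.cons (q 0) q) :=
      fun c hc h0 => hT c hc fun t => h0 t.succ
    refine Algebra.adjoin_mono ?_ (gen hr hs hd h7 hρ x i j)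
    rintro _ ⟨t, rfl⟩
    refine Fin.cases ⟨0, rfl⟩ (fun t => ⟨t, rfl⟩) t

theorem lift_PQ {s : F → O} (hs : ∀ x, algebraMap O F (s x) = x) {P Q : M2 F} (h : P * Q = 1) :
    ∃ P' Q' : M2 O, P' * Q' = 1 ∧ P'.map (algebraMap O F) = P ∧ Q'.map (algebraMap O F) = Q := by
  have h1 : (P.map s).map (algebraMap O F) = P := by
    ext i j
    exact hs _
  have hu : IsUnit (P.map s).det := by
    by_contra hc
    have e := red_zero hs ((mem_maximalIdeal _).2 hc)
    rw [RingHom.map_det, RingHom.mapMatrix_apply, h1] at e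
    exact left_ne_zero_of_mul_eq_one (det_PQ h) e
  have h2 := Matrix.mul_nonsing_inv _ hu
  refine ⟨_, _, h2, h1, ?_⟩
  have h3 : P * ((P.map s)⁻¹).map (algebraMap O F) = 1 := by
    conv_lhs => rw [← h1]
    rw [h1, ← congrArg (· * _) h1, ← Matrix.map_mul, h2,
      Matrix.map_one _ (map_zero _) (map_one _)]
  rw [← one_mul (Matrix.map _ _), ← mul_eq_one_comm.1 h, Matrix.mul_assoc, h3, mul_one]

end

theorem two : TWO := by
  intro F O _ _ _ _ _ _ _ _ r s d hr ⟨P, Q, h, hc⟩ hdet hs hd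
  have hd' : ∀ x, algebraMap O F (d x) = (r x).det := fun x => by rw [hd, hdet]
  have hI : ∀ {P Q : M2 F} {r' : G2 →* M2 F}, Cj P Q r r' → Inp r' → OutG r s d 6 :=
    fun c H => outG_of_out (shell _ F O r s d hr hs hd' (c.inp H))
  have hU : ∀ {P Q : M2 F}, P * Q = 1 → (∀ x, ∃ n, Q * r x * P = !![1, n; 0, 1]) →
      OutG r s d 6 := by
    intro P Q h hu
    obtain ⟨g, a, hL⟩ := L2.ar
    obtain ⟨U, hU, hH⟩ := L2.relS _ g a hL
    obtain ⟨P', Q', h1, h2, h3⟩ := lift_PQ hs h
    exact outU hU hH r s d hr hdet hs hd P' Q' h1 (by rw [h2, h3]; exact hu)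
  have c := cjr r h
  generalize (cj P Q h).comp r = r' at c
  simp only [← c.2] at hc
  have hr' := c.lc hr
  have hdet' : ∀ x, (r' x).det = 1 := fun x => by rw [c.det, hdet]
  rcases hc with hx | hx
  · by_cases h1 : ∃ y, r' y 0 0 ≠ r' y 1 1
    · obtain ⟨y, hy⟩ := h1
      obtain ⟨P', Q', h', k1, k2, k3⟩ := dg_of r' hx hy
      have c' := cjr r' h'
      generalize (cj P' Q' h').comp r' = r'' at c'
      simp only [← c'.2] at k1 k2 k3
      by_cases h2 : ∃ x, r'' x 0 1 ≠ 0
      · obtain ⟨g, p, q, hT⟩ := ns F r'' (c'.lc hr') (fun x => by rw [c'.det, hdet']) k1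
          ⟨y, k2, k3⟩ h2
        obtain ⟨g, p, q, hT⟩ := (c.trans c').tn hT
        exact outN hr hs hd' hT
      · push Not at h2
        exact hI (c.trans c') (L2c.caseB F r'' (c'.lc hr') (fun x => ⟨h2 x, k1 x⟩) ⟨y, k3⟩)
    · push Not at h1
      refine hU h fun x => ⟨r' x 0 1, ?_⟩
      have e4 := hdet' x
      rw [Matrix.det_fin_two, hx, ← h1, mul_zero, sub_zero] at e4
      have e5 := one_of e4
      rw [← c.2]
      ext i j
      fin_cases i <;> fin_cases j
      · exact e5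
      · rfl
      · exact hx x
      · exact (h1 x).symm.trans e5
  · by_cases h1 : ∃ x, r' x 0 1 = 0 ∧ r' x 0 0 ≠ r' x 1 1
    · refine hI c ?_
      by_cases h2 : ∃ x, r' x 0 0 = 0
      · exact L2c.caseA F r' hr' hx h2 h1
      · obtain ⟨y, -, hy⟩ := h1
        exact L2c.caseB F r' hr' (fun x => (hx x).resolve_right fun h => h2 ⟨x, h.1⟩) ⟨y, hy⟩
    · push Not at h1
      obtain ⟨P', Q', h', hu⟩ := uni_of r' hx hdet' h1
      have c' := c.trans (cjr r' h')
      exact hU c'.1 fun x => by rw [← c'.2]; exact hu x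

/-- **the block at two** for a global representation with split characteristic polynomials -/
theorem two3 {F O : Type} [Field F] [Finite F] [CharP F 2] [CommRing O] [IsLocalRing O]
    [IsNoetherianRing O] [IsAdicComplete (maximalIdeal O) O] [Algebra O F]
    (ρ : GQ →* GL (Fin 2) F) (hρ : IsOpen {g : GQ | ρ g = 1})
    (hsp : ∀ g, ∃ a : F, a ^ 2 - (ρ g : M2 F).trace * a + (ρ g : M2 F).det = 0)
    (r : G2 →* M2 F) (he : ∀ x, r x = (ρ (jj 2 x) : M2 F)) (hr : IsLocallyConstant r)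
    (hdet : ∀ x, (r x).det = 1) (s : F → O) (d : G2 → O) (hs : ∀ x, algebraMap O F (s x) = x)
    (hd : ∀ x, algebraMap O F (d x) = 1) : OutG r s d 6 := by
  refine two F O r s d hr ?_ hdet hs hd
  rw [show (r : G2 → M2 F) = _ from funext he]
  exact dick F G2 (ρ.comp (jj 2)) (Two.solv_jj 2 ρ hρ) fun g => hsp _

end Vale.Agent.P022E.G5
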