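import Vale.Agent.P022E.G5.Defs
import Vale.Agent.P022D.L2c.Tan

/-!
# P022, block G5: the inputs of the local block do not change under conjugation
-/

set_option linter.all false

noncomputable section

namespace Vale.Agent.P022E.G5

open Vale.Agent.P022D Vale.Agent.P022D.L2b Vale.Agent.P022D.Loc2

variable {G F : Type} [Group G] [TopologicalSpace G] [Field F] {P Q : M2 F} {r r' : G →* M2 F}

/-- `r'` is the conjugate of `r` -/
def Cj (P Q : M2 F) (r r' : G →* M2 F) : Prop := P * Q = 1 ∧ ∀ x, r' x = Q * r x * P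

theorem cj_cj (h : P * Q = 1) (X : M2 F) : P * (Q * X * P) * Q = X := by
  calc P * (Q * X * P) * Q = (P * Q) * X * (P * Q) := by simp only [Matrix.mul_assoc]
    _ = X := by rw [h, one_mul, mul_one]

theorem Cj.symm (h : Cj P Q r r') : Cj Q P r' r :=
  ⟨mul_eq_one_comm.1 h.1, fun x => by rw [h.2, cj_cj h.1]⟩

theorem cj_mul (h : P * Q = 1) (X Y : M2 F) : Q * X * P * (Q * Y * P) = Q * (X * Y) * P := by
  calc Q * X * P * (Q * Y * P) = Q * X * (P * Q) * Y * P := by simp only [Matrix.mul_assoc]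
    _ = _ := by rw [h]; simp only [Matrix.mul_assoc, mul_one, one_mul]

theorem det_PQ (h : P * Q = 1) : P.det * Q.det = 1 := by
  rw [← Matrix.det_mul, h, Matrix.det_one]

theorem det_cj (h : P * Q = 1) (X : M2 F) : (Q * X * P).det = X.det := by
  rw [Matrix.det_mul, Matrix.det_mul]
  linear_combination X.det * det_PQ h

theorem pd_cj (h : P * Q = 1) (X Y : M2 F) : pd (Q * X * P) (Q * Y * P) = pd X Y := by
  have e := det_PQ h
  rw [Matrix.det_fin_two, Matrix.det_fin_two] at e
  simp only [pd, Matrix.mul_apply, Fin.sum_univ_two]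
  linear_combination (X 0 0 * Y 1 1 + X 1 1 * Y 0 0 - X 0 1 * Y 1 0 - X 1 0 * Y 0 1) * e

theorem Cj.z1 (h : Cj P Q r r') {c : G → M2 F} (hc : Z1 r c) : Z1 r' fun x => Q * c x * P where
  lc := hc.lc.comp fun X => Q * X * P
  mul x y := by rw [hc.mul, h.2, h.2, cj_mul h.1, cj_mul h.1, Matrix.mul_add, Matrix.add_mul]
  det x := by rw [h.2, pd_cj h.1, hc.det]

theorem Cj.na (h : Cj P Q r r') (H : NA r') : NA r := by
  obtain ⟨a, h1, h2, h3⟩ := H
  refine ⟨a, h1, h2, fun ⟨z, k1, k2, k3⟩ => h3 ⟨fun x => Q * z x * P,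
    k1.comp fun X => Q * X * P, fun x y => ?_, fun x => ?_⟩⟩
  · beta_reduce
    rw [k2, h.2, h.2, h.2, cj_mul h.1, cj_mul h.1, Matrix.mul_add, Matrix.add_mul,
      Matrix.mul_add, Matrix.add_mul, Matrix.mul_smul, Matrix.smul_mul]
  · rw [h.2, pd_cj h.1, det_cj h.1, k3]

theorem Cj.nb (h : Cj P Q r r') (H : NB r') : NB r := by
  obtain ⟨t, t', h1, h2, h3⟩ := H
  have h' := h.symm.1
  refine ⟨_, _, h.symm.z1 h1, h.symm.z1 h2, fun ⟨z, k1, k2, k3⟩ => h3 ⟨fun x => Q * z x * P,
    k1.comp fun X => Q * X * P, fun x y => ?_, fun x => ?_⟩⟩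
  · beta_reduce
    rw [k2, h.2, h.2, cj_mul h.1, cj_mul h.1, cj_mul h', cj_mul h']
    simp only [Matrix.mul_add, Matrix.add_mul, cj_cj h']
  · have := k3 x
    rw [pd_cj h'] at this
    rw [h.2, pd_cj h.1, this]

/-- the first order deformations -/
def ZS (r : G →* M2 F) : Submodule F (G → M2 F) where
  carrier := {c | Z1 r c}
  add_mem' {a b} ha hb := ⟨ha.lc.comp₂ hb.lc fun X Y => X + Y, fun x y => by
    simp only [Pi.add_apply, ha.mul, hb.mul, Matrix.mul_add, Matrix.add_mul]
    abel, fun x => by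
    have e1 := ha.det x
    have e2 := hb.det x
    simp only [pd, Pi.add_apply, Matrix.add_apply] at e1 e2 ⊢
    linear_combination e1 + e2⟩
  zero_mem' := ⟨IsLocallyConstant.const _, fun x y => by simp, fun x => by simp [pd]⟩
  smul_mem' k a ha := ⟨ha.lc.comp fun X => k • X, fun x y => by
    simp only [Pi.smul_apply, ha.mul, smul_add, Matrix.mul_smul, Matrix.smul_mul], fun x => by
    have e1 := ha.det x
    simp only [pd, Pi.smul_apply, Matrix.smul_apply, smul_eq_mul] at e1 ⊢
    linear_combination k * e1⟩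

theorem Cj.tn (h : Cj P Q r r') {n : ℕ} {g : Fin n → G} {p q : Fin n → Fin 2}
    (H : TnG r' g p q) : ∃ (g : Fin n → G) (p q : Fin n → Fin 2), TnG r g p q := by
  let L : ZS r →ₗ[F] (Fin n → F) :=
    { toFun := fun c i => (Q * c.1 (g i) * P) (p i) (q i)
      map_add' := fun a b => by
        funext i
        simp only [Submodule.coe_add, Pi.add_apply, Matrix.mul_add, Matrix.add_mul,
          Matrix.add_apply]
      map_smul' := fun k a => by
        funext i
        simp only [Submodule.coe_smul, Pi.smul_apply, Matrix.mul_smul, Matrix.smul_mul,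
          Matrix.smul_apply, RingHom.id_apply] }
  have hL : Function.Injective L := by
    rw [injective_iff_map_eq_zero]
    intro c hc
    refine Subtype.ext (funext fun x => ?_)
    have e := H _ (h.z1 c.2) (fun i => congrFun hc i) x
    rw [← cj_cj h.1 (c.1 x), e, Matrix.mul_zero, Matrix.zero_mul]
    rfl
  haveI : Module.Finite F (ZS r) := Module.Finite.of_injective L hL
  have hn : Module.finrank F (ZS r) ≤ n := by
    simpa using LinearMap.finrank_le_finrank_of_injective hL
  let ev : G × Fin 2 × Fin 2 → Module.Dual F (ZS r) := fun t =>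
    { toFun := fun c => c.1 t.1 t.2.1 t.2.2
      map_add' := fun _ _ => rfl
      map_smul' := fun _ _ => rfl }
  obtain ⟨u, hu⟩ := L2c.pick n (ZS r) hn ev fun c hc =>
    Subtype.ext (funext fun x => Matrix.ext fun i j => hc (x, i, j))
  exact ⟨fun i => (u i).1, fun i => (u i).2.1, fun i => (u i).2.2, fun c hc h0 x =>
    congrFun (congrArg Subtype.val (hu ⟨c, hc⟩ h0)) x⟩

theorem Cj.inp (h : Cj P Q r r') (H : Inp r') : Inp r := by
  obtain ⟨⟨g, p, q, h1⟩, h2, h3⟩ := H
  exact ⟨h.tn (n := 7) h1, h.na h2, h.nb h3⟩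

end Vale.Agent.P022E.G5
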