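import Vale.Agent.P022D.Loc2.Defs
import Vale.Agent.P022D.W.Tame

/-!
# P022, block G5 (local ring at 2, any residual representation): statements
-/

set_option linter.all false

noncomputable section

namespace Vale.Agent.P022E.G5

open NumberField IsLocalRing
open Vale.Agent.P022 Vale.Agent.P022D
open Vale.Agent.P022D.L2b (M2)

/-- the absolute Galois group of `ℚ₂` -/
abbrev G2 : Type := Gal(AlgebraicClosure ℚ_[2] / ℚ_[2])

/-- triangular or monomial after a conjugation over `F` -/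
def Cls {G F : Type} [Field F] (r : G → M2 F) : Prop :=
  ∃ P Q : M2 F, P * Q = 1 ∧ ((∀ x, (Q * r x * P) 1 0 = 0) ∨
    ∀ x, ((Q * r x * P) 0 1 = 0 ∧ (Q * r x * P) 1 0 = 0) ∨
      ((Q * r x * P) 0 0 = 0 ∧ (Q * r x * P) 1 1 = 0))

/-- row SOLV: the image of a decomposition group is solvable -/
def SOLV : Prop := ∀ (l : ℕ), l.Prime → ∀ P : Ideal (𝓞 Qb), P.IsPrime → (l : 𝓞 Qb) ∈ P →
  ∀ (Γ : Type) [Group Γ] (f : GQ →* Γ), IsOpen {g : GQ | f g = 1} →
    Group.IsSolvable ((W.dec P).map f)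

/-- row DICK: solvable image, eigenvalues in `F` -/
def DICK : Prop := ∀ (F : Type) [Field F] [CharP F 2] (G : Type) [Group G]
  (ρ : G →* GL (Fin 2) F), Group.IsSolvable ρ.range →
  (∀ g, ∃ a : F, a ^ 2 - (ρ g : M2 F).trace * a + (ρ g : M2 F).det = 0) →
  Cls fun g => (ρ g : M2 F)

/-- row NS: the non split case with two different characters has six coordinates -/
def NS : Prop := ∀ (F : Type) [Field F] [Finite F] [CharP F 2] (r : G2 →* M2 F),
  IsLocallyConstant r → (∀ x, (r x).det = 1) → (∀ x, r x 1 0 = 0) →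
  (∃ y, r y 0 1 = 0 ∧ r y 0 0 ≠ r y 1 1) → (∃ x, r x 0 1 ≠ 0) →
  ∃ (g : Fin 6 → G2) (p q : Fin 6 → Fin 2), Loc2.TnG r g p q

/-- **the block at two** -/
def TWO : Prop :=
  ∀ (F O : Type) [Field F] [Finite F] [CharP F 2] [CommRing O] [IsLocalRing O]
    [IsNoetherianRing O] [IsAdicComplete (maximalIdeal O) O] [Algebra O F]
    (r : G2 →* M2 F) (s : F → O) (d : G2 → O), IsLocallyConstant r → Cls r →
    (∀ x, (r x).det = 1) → (∀ x, algebraMap O F (s x) = x) → (∀ x, algebraMap O F (d x) = 1) →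
    Loc2.OutG r s d 6

end Vale.Agent.P022E.G5
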