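import Vale.Agent.P022E.G5.Defs
import Vale.Agent.P022E.L2.Sol

/-!
# P022E, block G5: rows SOLV and DICK
-/

set_option linter.all false

namespace Vale.Agent.P022E.G5.H4

theorem solv : SOLV := fun l hl P hP hlP Γ _ f hf => by
  have h := L2.dec_solv f hf hl hP hlP
  rwa [MonoidHom.range_comp, Subgroup.range_subtype] at h

theorem dick : DICK := fun F _ _ G _ ρ hs he => by
  obtain ⟨P, h⟩ := L2.cls ρ hs he
  exact ⟨P, (P⁻¹ : GL (Fin 2) F), P.mul_inv, h⟩

end Vale.Agent.P022E.G5.H4
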